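import Mathlib

/-!
# P271: finite-dimensional duality (the exact exponent vector)

`exists_exact`: let `h` be sublinear and monotone on the orthant `ℝ^ι_{≥0}`, let `l ≥ 0`,
`κ ≥ 0`, and suppose that `h x - t h l ≥ κ·(x - t l) - ε |x - t l|_∞` for all `x ≥ 0`, `t ≥ 0`.
Then there is `k ≥ 0` with `k·x ≤ h x` for all `x ≥ 0`, `k·l = h l` and `|k - κ|₁ ≤ ε`.
-/

namespace Vale.Agent.P271.Dual

open Finset

variable {ι : Type*} [Fintype ι]

/-- The positive part of a vector. -/
def pp (x : ι → ℝ) : ι → ℝ := fun i => max (x i) 0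

omit [Fintype ι] in
lemma pp_nonneg (x : ι → ℝ) (i : ι) : 0 ≤ pp x i := le_max_right _ _

omit [Fintype ι] in
lemma pp_of_nonneg {x : ι → ℝ} (hx : ∀ i, 0 ≤ x i) : pp x = x := by
  funext i; exact max_eq_left (hx i)

omit [Fintype ι] in
lemma pp_smul {c : ℝ} (hc : 0 ≤ c) (x : ι → ℝ) : pp (c • x) = c • pp x := by
  funext i
  simp only [pp, Pi.smul_apply, smul_eq_mul]
  rw [mul_max_of_nonneg _ _ hc, mul_zero]

omit [Fintype ι] in
lemma pp_add_le (x y : ι → ℝ) (i : ι) : pp (x + y) i ≤ (pp x + pp y) i := by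
  simp only [pp, Pi.add_apply]
  exact max_le (add_le_add (le_max_left _ _) (le_max_left _ _))
    (add_nonneg (le_max_right _ _) (le_max_right _ _))

omit [Fintype ι] in
lemma abs_pp_sub_le (x y : ι → ℝ) (hy : ∀ i, 0 ≤ y i) (i : ι) :
    |pp x i - y i| ≤ |x i - y i| := by
  simp only [pp]
  rcases le_total 0 (x i) with h | h
  · rw [max_eq_left h]
  · rw [max_eq_right h]
    have := hy i
    rw [abs_le]
    constructor
    · have : y i - x i ≤ |x i - y i| := by rw [abs_sub_comm]; exact le_abs_self _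
      linarith
    · have : 0 ≤ |x i - y i| := abs_nonneg _
      linarith

/-- The exact exponent vector. -/
theorem exists_exact (h : (ι → ℝ) → ℝ)
    (hom : ∀ x, (∀ i, 0 ≤ x i) → ∀ t : ℝ, 0 ≤ t → h (t • x) = t * h x)
    (sub : ∀ x y, (∀ i, 0 ≤ x i) → (∀ i, 0 ≤ y i) → h (x + y) ≤ h x + h y)
    (mono : ∀ x y, (∀ i, 0 ≤ x i) → (∀ i, x i ≤ y i) → h x ≤ h y)
    (l κ : ι → ℝ) (hl : ∀ i, 0 ≤ l i) (hκ : ∀ i, 0 ≤ κ i) (ε : ℝ) (hε : 0 ≤ ε)
    (H : ∀ x, (∀ i, 0 ≤ x i) → ∀ t : ℝ, 0 ≤ t → ∀ B : ℝ, (∀ i, |x i - t * l i| ≤ B) → 0 ≤ B →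
      ∑ i, κ i * (x i - t * l i) - ε * B ≤ h x - t * h l) :
    ∃ k : ι → ℝ, (∀ i, 0 ≤ k i) ∧ (∀ x, (∀ i, 0 ≤ x i) → ∑ i, k i * x i ≤ h x) ∧
      ∑ i, k i * l i = h l ∧ ∑ i, |k i - κ i| ≤ ε := by
  classical
  have h0 : h 0 = 0 := by
    have := hom 0 (fun _ => le_rfl) 0 le_rfl
    simpa using this
  have hnn : ∀ x, (∀ i, 0 ≤ x i) → 0 ≤ h x := fun x hx => by
    rw [← h0]; exact mono 0 x (fun _ => le_rfl) hx
  -- the sublinear functional
  let N : ((ι → ℝ) × (ι → ℝ)) × ℝ → ℝ := fun v =>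
    h (pp v.1.1) + ∑ i, κ i * v.1.2 i + ε * ‖v.1.2‖ + v.2 * h l
  let D : Submodule ℝ (((ι → ℝ) × (ι → ℝ)) × ℝ) :=
    { carrier := {v | v.1.1 + v.1.2 + v.2 • l = 0}
      add_mem' := by
        intro a b ha hb
        change a.1.1 + a.1.2 + a.2 • l = 0 at ha
        change b.1.1 + b.1.2 + b.2 • l = 0 at hb
        change (a + b).1.1 + (a + b).1.2 + (a + b).2 • l = 0
        have : (a + b).1.1 + (a + b).1.2 + (a + b).2 • l
            = (a.1.1 + a.1.2 + a.2 • l) + (b.1.1 + b.1.2 + b.2 • l) := by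
          simp only [Prod.fst_add, Prod.snd_add, add_smul]; abel
        rw [this, ha, hb, add_zero]
      zero_mem' := by simp
      smul_mem' := by
        intro c a ha
        change a.1.1 + a.1.2 + a.2 • l = 0 at ha
        change (c • a).1.1 + (c • a).1.2 + (c • a).2 • l = 0
        have : (c • a).1.1 + (c • a).1.2 + (c • a).2 • l = c • (a.1.1 + a.1.2 + a.2 • l) := by
          simp only [Prod.smul_fst, Prod.smul_snd, smul_add, smul_smul, smul_eq_mul]
        rw [this, ha, smul_zero] }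
  let f : (((ι → ℝ) × (ι → ℝ)) × ℝ) →ₗ.[ℝ] ℝ := ⟨D, 0⟩
  have N_hom : ∀ c : ℝ, 0 < c → ∀ x, N (c • x) = c * N x := by
    intro c hc x
    simp only [N, Prod.smul_fst, Prod.smul_snd, smul_eq_mul, Pi.smul_apply]
    rw [pp_smul hc.le, hom _ (pp_nonneg _) c hc.le, norm_smul, Real.norm_of_nonneg hc.le]
    have : ∑ i, κ i * (c * x.1.2 i) = c * ∑ i, κ i * x.1.2 i := by
      rw [Finset.mul_sum]; exact Finset.sum_congr rfl fun i _ => by ring
    rw [this]; ring
  have N_add : ∀ x y, N (x + y) ≤ N x + N y := by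
    intro x y
    simp only [N, Prod.fst_add, Prod.snd_add, Pi.add_apply]
    have h1 : h (pp (x.1.1 + y.1.1)) ≤ h (pp x.1.1) + h (pp y.1.1) :=
      (mono _ _ (pp_nonneg _) (pp_add_le _ _)).trans (sub _ _ (pp_nonneg _) (pp_nonneg _))
    have h2 : ∑ i, κ i * (x.1.2 i + y.1.2 i) = ∑ i, κ i * x.1.2 i + ∑ i, κ i * y.1.2 i := by
      rw [← Finset.sum_add_distrib]; exact Finset.sum_congr rfl fun i _ => by ring
    have h3 : ε * ‖x.1.2 + y.1.2‖ ≤ ε * ‖x.1.2‖ + ε * ‖y.1.2‖ := by
      rw [← mul_add]; exact mul_le_mul_of_nonneg_left (norm_add_le _ _) hε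
    rw [h2]
    linarith
  -- the key inequality on `D`
  have key : ∀ (y : ι → ℝ) (t : ℝ), 0 ≤ t →
      ∑ i, κ i * (y i - t * l i) - ε * ‖y - t • l‖ ≤ h (pp y) - t * h l := by
    intro y t ht
    have h1 := H (pp y) (pp_nonneg y) t ht ‖y - t • l‖ (fun i => by
      refine (abs_pp_sub_le y (fun i => t * l i) (fun i => mul_nonneg ht (hl i)) i).trans ?_
      have := norm_le_pi_norm (y - t • l) i
      simpa [Real.norm_eq_abs] using this) (norm_nonneg _)
    refine le_trans ?_ h1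
    refine sub_le_sub_right (Finset.sum_le_sum fun i _ => ?_) _
    exact mul_le_mul_of_nonneg_left (sub_le_sub_right (le_max_left _ _) _) (hκ i)
  have hf : ∀ x : f.domain, f x ≤ N x := by
    rintro ⟨⟨⟨y, z⟩, t⟩, hv⟩
    change y + z + t • l = 0 at hv
    change (0 : ℝ) ≤ h (pp y) + ∑ i, κ i * z i + ε * ‖z‖ + t * h l
    have hz : z = -(y + t • l) := by
      have : z = 0 - y - t • l := by rw [← hv]; abel
      rw [this]; abel
    rcases le_total t 0 with ht | ht
    · have h1 := key y (-t) (by linarith)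
      have e1 : y - (-t) • l = -z := by rw [hz]; simp
      rw [e1, norm_neg] at h1
      have e2 : ∑ i, κ i * (y i - -t * l i) = -∑ i, κ i * z i := by
        rw [← Finset.sum_neg_distrib]
        refine Finset.sum_congr rfl fun i _ => ?_
        rw [hz]; simp only [Pi.neg_apply, Pi.add_apply, Pi.smul_apply, smul_eq_mul]; ring
      rw [e2] at h1
      linarith
    · have h1 := key (y + t • l) 0 le_rfl
      have e1 : y + t • l - (0 : ℝ) • l = -z := by rw [hz]; simp
      rw [e1, norm_neg] at h1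
      have e2 : ∑ i, κ i * ((y + t • l) i - 0 * l i) = -∑ i, κ i * z i := by
        rw [← Finset.sum_neg_distrib]
        refine Finset.sum_congr rfl fun i _ => ?_
        rw [hz]; simp only [Pi.neg_apply, Pi.add_apply, Pi.smul_apply, smul_eq_mul]; ring
      rw [e2] at h1
      have h2 : h (pp (y + t • l)) ≤ h (pp y) + t * h l := by
        have : h (pp (y + t • l)) ≤ h (pp y + t • l) := by
          refine mono _ _ (pp_nonneg _) (fun i => ?_)
          have := pp_add_le y (t • l) i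
          rwa [pp_of_nonneg (x := t • l) (fun i => mul_nonneg ht (hl i))] at this
        have h3 := sub (pp y) (t • l) (pp_nonneg _) (fun i => mul_nonneg ht (hl i))
        rw [hom l hl t ht] at h3
        exact this.trans h3
      linarith
  obtain ⟨g, hg0, hgN⟩ := exists_extension_of_le_sublinear f N N_hom N_add hf
  have hgD : ∀ y z : ι → ℝ, ∀ t : ℝ, y + z + t • l = 0 → g ((y, z), t) = 0 := fun y z t hv =>
    hg0 ⟨((y, z), t), hv⟩
  -- the two components agree
  have hsplit : ∀ y z : ι → ℝ, ∀ t : ℝ, g ((y, z), t) = g ((y, 0), 0) + g ((0, z), 0)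
      + g ((0, 0), t) := by
    intro y z t
    rw [← map_add, ← map_add]
    simp
  have h12 : ∀ y : ι → ℝ, g ((y, 0), 0) = g ((0, y), 0) := by
    intro y
    have h1 := hgD y (-y) 0 (by simp)
    rw [hsplit] at h1
    have h2 : g ((0, -y), 0) = - g ((0, y), 0) := by
      rw [← map_neg]; simp
    have h3 : g ((0, 0), 0) = 0 := by
      have : (((0 : ι → ℝ), (0 : ι → ℝ)), (0 : ℝ)) = 0 := rfl
      rw [this, map_zero]
    rw [h2, h3] at h1
    linarith
  have h3 : ∀ t : ℝ, g ((0, 0), t) = t * h l := by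
    have hle : ∀ t : ℝ, g ((0, 0), t) ≤ t * h l := by
      intro t
      have := hgN ((0, 0), t)
      have h00 : h (pp (0 : ι → ℝ)) = 0 := by
        rw [pp_of_nonneg (x := (0 : ι → ℝ)) (fun _ => le_rfl), h0]
      simpa [N, h00] using this
    intro t
    refine le_antisymm (hle t) ?_
    have h1 := hle (-t)
    have h2 : g ((0, 0), -t) = - g ((0, 0), t) := by
      rw [← map_neg]; simp
    rw [h2] at h1
    linarith
  let G : (ι → ℝ) →ₗ[ℝ] ℝ := g ∘ₗ (LinearMap.inl ℝ ((ι → ℝ) × (ι → ℝ)) ℝ)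
    ∘ₗ (LinearMap.inl ℝ (ι → ℝ) (ι → ℝ))
  have hG1 : ∀ y, G y = g ((y, 0), 0) := fun y => rfl
  let k : ι → ℝ := fun i => G (Pi.single i 1)
  have hk : ∀ x : ι → ℝ, ∑ i, k i * x i = G x := by
    intro x
    conv_rhs => rw [LinearMap.pi_apply_eq_sum_univ G x]
    refine Finset.sum_congr rfl fun i _ => ?_
    simp only [k, smul_eq_mul]
    rw [mul_comm]
    congr 2
    funext j
    simp [Pi.single_apply, eq_comm]
  have hGp : ∀ x, G x ≤ h (pp x) := by
    intro x
    have := hgN ((x, 0), 0)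
    rw [hG1]
    simpa [N] using this
  have hGk : ∀ x, G x ≤ ∑ i, κ i * x i + ε * ‖x‖ := by
    intro x
    have := hgN ((0, x), 0)
    rw [hG1, h12]
    have h00 : h (pp (0 : ι → ℝ)) = 0 := by
      rw [pp_of_nonneg (x := (0 : ι → ℝ)) (fun _ => le_rfl), h0]
    simpa [N, h00] using this
  refine ⟨k, fun i => ?_, fun x hx => ?_, ?_, ?_⟩
  · have h1 := hGp (-(Pi.single i 1))
    have h2 : pp (-(Pi.single i (1 : ℝ)) : ι → ℝ) = 0 := by
      funext j
      simp only [pp, Pi.neg_apply, Pi.zero_apply]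
      refine max_eq_right ?_
      rw [neg_nonpos, Pi.single_apply]
      split_ifs <;> norm_num
    rw [h2, h0, map_neg] at h1
    linarith
  · rw [hk]
    have := hGp x
    rwa [pp_of_nonneg hx] at this
  · rw [hk]
    have h1 := hgD (-l) 0 1 (by simp)
    rw [hsplit, h3] at h1
    have h2 : g ((-l, 0), 0) = - g ((l, 0), 0) := by
      rw [← map_neg]; simp
    rw [h2, h3] at h1
    rw [hG1]
    linarith
  · let σ : ι → ℝ := fun i => if 0 ≤ k i - κ i then 1 else -1
    have h1 := hGk σ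
    have hσ : ‖σ‖ ≤ 1 := by
      rw [pi_norm_le_iff_of_nonneg zero_le_one]
      intro i
      simp only [σ]
      split_ifs <;> simp
    rw [← hk] at h1
    have h2 : ∑ i, |k i - κ i| = ∑ i, k i * σ i - ∑ i, κ i * σ i := by
      rw [← Finset.sum_sub_distrib]
      refine Finset.sum_congr rfl fun i _ => ?_
      simp only [σ]
      split_ifs with hi
      · rw [abs_of_nonneg hi]; ring
      · rw [abs_of_neg (not_le.mp hi)]; ring
    rw [h2]
    have h4 : ε * ‖σ‖ ≤ ε := by
      have := mul_le_mul_of_nonneg_left hσ hε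
      simpa using this
    linarith

end Vale.Agent.P271.Dual
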